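import Vale.Agent.P101.Final

namespace Vale.Agent.Results.P101.Stable

open Vale.Agent.P101

universe u v

/-- If the central sequence algebra of a nonzero unital separable C*-algebra `A` has no
characters, then `A` is isomorphic to the minimal tensor product of `A` with the Jiang-Su
algebra. -/
theorem result (A : Type u) [CStarAlgebra A] [Nontrivial A] [TopologicalSpace.SeparableSpace A]
    (ω : Ultrafilter ℕ) (_hω : (ω : Filter ℕ) ≤ Filter.cofinite) (hA : ¬ HasCharacter A ω)
    (Z : Type v) [CStarAlgebra Z] (hZ : IsJiangSu Z) : Absorbs A Z :=
  absorbs_of_noChar A ω hA Z hZ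

end Vale.Agent.Results.P101.Stable
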